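import Crest.Agent.N255.Wn.Re
import Crest.Agent.N255.Uc.Cov

/-!
# Row 255 (helper83): chains between walls.  Small fillings, reversed walls, translated walls, strips and
the chain of a vertex region.
-/

set_option autoImplicit false
open Set Filter Topology
open scoped Pointwise

noncomputable section

namespace Crest.Agent.N255.Vc

open Crest.Agent.N255.Tp Crest.Agent.N255.Wn

variable {X : Type} [TopologicalSpace X] {n d : ℕ} {𝒞 𝒱 𝒲 : Set (Set X)} {A W F : Set X}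

section ring

variable {k : Type} [CommRing k]

theorem DD_small {c : Ch k n X} (hc : c ∈ (Sm 𝒱).ch k n) : Sml.DD k 𝒲 n c ∈ (Sm 𝒱).ch k (n + 1) :=
  Sb.map_mem (P := Sm 𝒱) _ _ (fun _ ⟨U, hU, h⟩ =>
    Sb.ch_mono (On_le_Sm hU) (Sml.DD_mem k 𝒲 U (Sb.sg_mem h))) hc

theorem rho_small {c : Ch k n X} (hc : c ∈ (Sm 𝒱).ch k n) : Sml.rho k 𝒲 n c ∈ (Sm 𝒱).ch k n :=
  Sb.map_mem (P := Sm 𝒱) _ _ (fun _ ⟨U, hU, h⟩ =>
    Sb.ch_mono (On_le_Sm hU) (Sml.rho_mem k 𝒲 U (Sb.sg_mem h))) hc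

theorem rho_cover (ho : ∀ U ∈ 𝒱, IsOpen U) (hc : univ ⊆ ⋃₀ 𝒱) (c : Ch k n X) :
    Sml.rho k 𝒱 n c ∈ (Sm 𝒱).ch k n :=
  Sb.ch_mono Sb.inf_le_right (Sml.rho_inf k ho hc (mem_ch_univ c))

/-- small null chains have small fillings -/
theorem sm_RN (ho : ∀ U ∈ 𝒱, IsOpen U) (hc : univ ⊆ ⋃₀ 𝒱) {x : Ch k n X} (hx : x ∈ RN k W F n)
    (hs : x ∈ (Sm 𝒱).ch k n) : ∃ ρ ∈ ((On W).inf (Sm 𝒱)).ch k (n + 1),
      ∃ c ∈ ((On F).inf (Sm 𝒱)).ch k n, bd k ρ = c + x := by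
  obtain ⟨_, ⟨b, hb, rfl⟩, y, hy, e⟩ := Submodule.mem_sup.1 hx
  refine ⟨_, Sml.mem_inf (Sml.rho_mem k 𝒱 W hb) (rho_cover ho hc b), -Sml.rho k 𝒱 n y,
    neg_mem (Sml.mem_inf (Sml.rho_mem k 𝒱 F hy) (rho_cover ho hc y)), ?_⟩
  rw [Sml.bd_rho, ← Sml.rho_of_sm k 𝒱 hs, ← e, map_add]
  abel

/-- the same, the remainder is also small for a family `𝒲` of open sets which covers `F` -/
theorem sm_RN' (ho : ∀ U ∈ 𝒱, IsOpen U) (hc : univ ⊆ ⋃₀ 𝒱) (ho' : ∀ U ∈ 𝒲, IsOpen U) (hF : F ⊆ ⋃₀ 𝒲)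
    (hFW : F ⊆ W) {x : Ch k (n + 1) X} (hx : x ∈ RN k W F (n + 1)) (hs : x ∈ (Sm 𝒱).ch k (n + 1))
    (hb : bd k x ∈ (Sm 𝒲).ch k n) : ∃ ρ ∈ ((On W).inf (Sm 𝒱)).ch k (n + 2),
      ∃ c ∈ (((On F).inf (Sm 𝒲)).inf (Sm 𝒱)).ch k (n + 1), bd k ρ = c + x := by
  obtain ⟨ρ, h1, c, h2, e⟩ := sm_RN ho hc hx hs
  have h3 := Sb.ch_mono Sb.inf_le_left h2
  have h4 := Sb.ch_mono Sb.inf_le_right h2
  have h5 : bd k c = -bd k x := by
    rw [eq_neg_iff_add_eq_zero, ← map_add, ← e, bd_bd]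
  refine ⟨ρ - Sml.DD k 𝒲 _ c, sub_mem h1 (Sml.mem_inf (ch_mono hFW (Sml.DD_mem k 𝒲 F h3)) (DD_small h4)),
    Sml.rho k 𝒲 _ c, Sml.mem_inf (Sml.rho_inf k ho' hF h3) (rho_small h4), ?_⟩
  rw [map_sub, e, Sml.rho_succ, h5, map_neg, Sml.DD_sm k 𝒲 hb]
  abel

/-- subdivision does not change relative classes -/
theorem sub_rho {x : Ch k (n + 1) X} (h : x ∈ (On W).ch k (n + 1)) (hb : bd k x ∈ (On F).ch k n) :
    x - Sml.rho k 𝒱 (n + 1) x ∈ RN k W F (n + 1) := by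
  rw [Sml.rho_succ, _root_.sub_sub, sub_sub_cancel]
  exact add_mem (B_le_RN (Sb.bd_mem_B (Sml.DD_mem k 𝒱 W h))) (ch_le_RN (Sml.DD_mem k 𝒱 F hb))

theorem range_pt (σ : Sx 0 X) : ∃ x, range σ = {x} := ⟨_, range_zero σ⟩

theorem cut_compl (A : Set X) : cut k Aᶜ = (fun _ => 1) - cut k A := by
  funext σ
  obtain ⟨x, h⟩ := range_pt σ
  by_cases hx : x ∈ A
  · rw [Pi.sub_apply, cut_one (A := A) (by simpa [h] using hx),
      cut_zero (A := Aᶜ) (by simpa [h] using hx), sub_self]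
  · rw [Pi.sub_apply, cut_zero (A := A) (by simpa [h] using hx),
      cut_one (A := Aᶜ) (by simpa [h] using hx), sub_zero]

theorem wall_compl (A : Set X) (z : Ch k (n + 1) X) : wall Aᶜ z = -wall A z := by
  rw [wall, cut_compl, map_sub, cob_one, zero_sub, cD.neg, wall]

theorem cap'_sum {ι : Type} (s : Finset ι) {i j : ℕ} (φ : ι → Co k i X) (z : Ch k n X) :
    cap' j (∑ l ∈ s, φ l) z = ∑ l ∈ s, cap' j (φ l) z := by
  classical
  induction s using Finset.induction_on with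
  | empty => simpa using (cD (k := k) (X := X)).zero' (j := j) (i := i) z
  | insert a s h ih => rw [Finset.sum_insert h, Finset.sum_insert h, ← ih]; exact cD.add _ _ _

/-- the wall of an intersection of cuts with disjoint complements -/
theorem wall_iInter {ι : Type} [Fintype ι] (A : ι → Set X) (h : ∀ i j, i ≠ j → ∀ x, x ∈ A i ∨ x ∈ A j)
    (z : Ch k (n + 1) X) : wall (⋂ j, A j) z = ∑ j, wall (A j) z := by
  have e : cut k (⋂ j, A j)ᶜ = ∑ j, cut k (A j)ᶜ := by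
    funext σ
    obtain ⟨x, hx⟩ := range_pt σ
    rw [Finset.sum_apply]
    by_cases h1 : ∀ j, x ∈ A j
    · rw [cut_zero (by simpa [hx] using h1), Finset.sum_eq_zero fun j _ =>
        cut_zero (by simpa [hx] using h1 j)]
    · obtain ⟨i, hi⟩ := not_forall.1 h1
      rw [cut_one (by simpa [hx] using ⟨i, hi⟩), Finset.sum_eq_single i (fun j _ hj =>
        cut_zero (by simpa [hx] using (h j i hj x).resolve_right hi)) (by simp),
        cut_one (by simpa [hx] using hi)]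
  rw [← neg_inj, ← wall_compl, ← Finset.sum_neg_distrib, wall, e, map_sum, cap'_sum]
  exact Finset.sum_congr rfl fun j _ => wall_compl _ _





end ring

variable {k : Type} [Field k] {O : Ori k (d + 1) X} {w w' : Ch k (d + 1) X} {s s' r r' : C(X, ℝ)}
  {a a' b b' R R' : ℝ}



variable (ho : ∀ C ∈ 𝒞, IsOpen C) (hc : univ ⊆ ⋃₀ 𝒞)
include ho hc

/-- walls can be subdivided -/
theorem wr_rho (h : Wr O 𝒞 s r a b R w) (𝒱 : Set (Set X)) :
    Wr O 𝒞 s r a b R (Sml.rho k 𝒱 (d + 1) w) :=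
  h.congr (sub_rho (h.mem ho hc).1 (h.mem ho hc).2)

variable [T2Space X]

/-- walls which are small for a second cover -/
theorem exists_wr_sm (O : Ori k (d + 1) X) (hab : a < b) (hK : IsCompact (box s r a b R))
    (ho' : ∀ U ∈ 𝒱, IsOpen U) (hc' : univ ⊆ ⋃₀ 𝒱) :
    ∃ w ∈ ((Sm 𝒞).inf (Sm 𝒱)).ch k (d + 1), Wr O 𝒞 s r a b R w := by
  obtain ⟨w, h1, h2⟩ := exists_wr ho hc O hab hK
  exact ⟨_, Sml.mem_inf (rho_small h1) (rho_cover ho' hc' w), wr_rho ho hc h2 𝒱⟩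

/-- the wall of the reversed level -/
theorem wr_neg {c : ℝ} (hs : ∀ x, s' x = c - s x) (h : Wr O 𝒞 s r a b R w) :
    Wr O 𝒞 s' r (c - b) (c - a) R (-w) := by
  obtain ⟨ε, m, -, -, h1, h2, h3, -⟩ := id h
  obtain ⟨K, z, k1, -, k3, k4, k5, k6⟩ := h.at ho hc (ε := ε / 2) (m := m) (by linarith) (by linarith)
    (by linarith) isCompact_empty
  have e1 : win s' (c - b) (c - a) = win s a b := by
    ext x; simp only [win, hs, mem_ofPred_eq]; constructor <;> rintro ⟨_, _⟩ <;> constructor <;> linarith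
  have e2 : fw s' r (c - b) (c - a) R = fw s r a b R := by rw [fw_eq, fw_eq, e1]
  have e3 : cv 𝒞 s r (ε / 2) ⊆ cv 𝒞 s' r (ε / 2) := fun U hU => ⟨hU.1, hU.2.1, fun x hx y hy =>
    ⟨by rw [hs, hs]; linarith [(hU.2.2 y hy x hx).1], (hU.2.2 x hx y hy).2⟩⟩
  have k4' := Sb.ch_mono (Sm_le fun U hU => ⟨U, e3 hU, subset_rfl⟩) k4
  have := (cut_win ho hc (s := s') (r := r) (ε := ε / 2) (a := c - b) (b := c - a) (m := c - m)
    (a' := c - m) (b' := c - m + ε / 2) (by linarith) (by linarith) le_rfl (by linarith)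
    (by linarith)).wall_sub (A' := (lo s m)ᶜ) (F := fw s r a b R)
    (fun x hx h => by linarith [hs x, show s' x < c - m from hx, show s x < m from h])
    (fun x hx h => h (show s x < m by linarith [hs x, not_lo hx])) k4' k5.rc (e1 ▸ k3)
  refine ⟨ε / 2, c - m, K, z, by linarith, by linarith, by linarith, k1, by rwa [e1, e2], k4', k5, ?_⟩
  rw [wall_compl, e1] at this
  rw [e1, e2]
  convert sub_mem this k6 using 1
  abel


section vertex

variable {ι : Type} [Fintype ι] {s : ι → C(X, ℝ)} {a b R : ι → ℝ} {w : ι → Ch k (d + 1) X}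

omit ho hc [T2Space X] in
/-- the region behind the levels `b` -/
def core (s : ι → C(X, ℝ)) (b : ι → ℝ) : Set X := {x | ∀ j, s j x < b j}

omit ho hc [T2Space X] in
theorem isOpen_core : IsOpen (core s b) := by
  rw [show core s b = ⋂ j, lo (s j) (b j) by ext; simp [core, lo]]
  exact isOpen_iInter_of_finite fun _ => isOpen_lo

/-- **the walls of a vertex region bound**, relative to the complement of any compact set -/
theorem vertex_RN (hw : ∀ j, Wr O 𝒞 (s j) r (a j) (b j) (R j) (w j))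
    (hd : ∀ i j, i ≠ j → ∀ x, s i x ≤ a i ∨ s j x ≤ a j) {K : Set X} (hK : IsCompact K) :
    ∑ j, w j ∈ RN k (core s b) (core s b \ K ∪ ⋃ j, fw (s j) r (a j) (b j) (R j)) (d + 1) := by
  choose ε m L z h1 h2 h3 h4 h5 h6 using fun j => id (hw j)
  let 𝒰 : Set (Set X) := {U | IsOpen U ∧ ∀ j, U ∈ cv 𝒞 (s j) r (ε j)}
  have hU : univ ⊆ ⋃₀ 𝒰 := fun x hx => by
    choose U g1 g2 using fun j => cv_cov ho hc (s := s j) (r := r) (h1 j) hx
    have o : IsOpen (⋂ j, U j) := isOpen_iInter_of_finite fun j => (g1 j).1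
    refine ⟨⋂ j, U j, ⟨o, fun j => ⟨o, ?_, fun x hx y hy =>
      (g1 j).2.2 x (mem_iInter.1 hx j) y (mem_iInter.1 hy j)⟩⟩, mem_iInter.2 g2⟩
    obtain ⟨C, c1, c2⟩ := (g1 j).2.1
    exact ⟨C, c1, (iInter_subset _ j).trans c2⟩
  have hL : IsCompact (K ∪ ⋃ j, L j) := hK.union (isCompact_iUnion h4)
  obtain ⟨y, hy, fy⟩ := fundS_holds k X (d + 1) O _ 𝒰 hL (fun _ h => h.1) ((subset_univ _).trans hU)
  have hwin : ∀ j, win (s j) (a j) (b j) ⊆ core s b := fun j x hx i => by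
    by_cases e : i = j
    · exact e ▸ hx.2
    · linarith [(hd i j e x).resolve_right (not_le.2 hx.1), h1 i, h2 i, h3 i]
  have alt : ∀ Y ∈ 𝒰, cut k (⋂ j, lo (s j) (m j)) ∈ (On Y).van k k 0 ∨ Y ⊆ core s b := fun Y hY => by
    by_cases e : Y ⊆ (⋂ j, lo (s j) (m j))ᶜ
    · exact .inl (van_mono e cut_van)
    · obtain ⟨x, hx, g⟩ := not_subset.1 e
      exact .inr fun y hy j => by
        linarith [((hY.2 j).2.2 x hx y hy).1, show s j x < m j from mem_iInter.1 (not_not.1 g) j, h3 j]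
  have e1 : wall (⋂ j, lo (s j) (m j)) y ∈ RN k (core s b) (core s b \ K) (d + 1) :=
    D_cob cD (zero_add _) (loc_sm cD (T := univ) (fun Y hY => (alt Y hY).imp id
      fun h => inter_subset_left.trans h) hy (mem_ch_univ _))
      (loc_sm cD (T := (K ∪ ⋃ j, L j)ᶜ) (F := core s b \ K)
        (fun Y hY => (alt Y hY).imp id fun h x hx => ⟨h hx.1, fun g => hx.2 (.inl g)⟩)
        (Sb.bd_mem hy) fy.rc)
  rw [wall_iInter (fun j => lo (s j) (m j)) fun i j e x => (hd i j e x).imp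
    (fun h => show s i x < m i by linarith [h1 i, h2 i]) fun h => show s j x < m j by
      linarith [h1 j, h2 j]] at e1
  have e2 : ∑ j, (wall (lo (s j) (m j)) y - w j) ∈
      RN k (core s b) (⋃ j, fw (s j) r (a j) (b j) (R j)) (d + 1) :=
    Submodule.sum_mem _ fun j _ => RN_mono (hwin j) (subset_iUnion (fun j => fw (s j) r (a j) (b j) (R j)) j)
      ((hw j).spec ho hc (h1 j) (h2 j) (h3 j) hL
        ((sdiff_subset_sdiff_right ((subset_iUnion L j).trans subset_union_right)).trans (h5 j))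
        (Sb.ch_mono (Sm_le fun U hU => ⟨U, hU.2 j, subset_rfl⟩) hy) fy)
  rw [Finset.sum_sub_distrib] at e2
  simpa using sub_mem (RN_mono subset_rfl subset_union_left e1) (RN_mono subset_rfl subset_union_right e2)

omit [Fintype ι] ho hc [T2Space X] in
theorem win_core (hw : ∀ j, Wr O 𝒞 (s j) r (a j) (b j) (R j) (w j))
    (hd : ∀ i j, i ≠ j → ∀ x, s i x ≤ a i ∨ s j x ≤ a j) (j : ι) : win (s j) (a j) (b j) ⊆ core s b :=
  fun x hx i => by
    obtain ⟨ε, m, -, -, g1, g2, g3, -⟩ := hw i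
    by_cases e : i = j
    · exact e ▸ hx.2
    · linarith [(hd i j e x).resolve_right (not_le.2 hx.1)]

/-- **the chain of a vertex region**: `ρ` is `𝒱`-small, the remainder `c` is also `𝒲`-small -/
theorem vertex (hw : ∀ j, Wr O 𝒞 (s j) r (a j) (b j) (R j) (w j))
    (hd : ∀ i j, i ≠ j → ∀ x, s i x ≤ a i ∨ s j x ≤ a j) {K : Set X} (hK : IsCompact K)
    (hV : ∀ U ∈ 𝒱, IsOpen U) (hV' : univ ⊆ ⋃₀ 𝒱) (hs : ∀ j, w j ∈ (Sm 𝒱).ch k (d + 1))
    (hW : ∀ U ∈ 𝒲, IsOpen U) (h1 : core s b \ K ⊆ ⋃₀ 𝒲)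
    (h2 : ∀ j, ∃ U ∈ 𝒲, fw (s j) r (a j) (b j) (R j) ⊆ U) :
    ∃ ρ ∈ ((On (core s b)).inf (Sm 𝒱)).ch k (d + 2),
      ∃ c ∈ (((On (core s b \ K ∪ ⋃ j, fw (s j) r (a j) (b j) (R j))).inf (Sm 𝒲)).inf (Sm 𝒱)).ch k (d + 1),
        bd k ρ = c + ∑ j, w j :=
  sm_RN' hV hV' hW (union_subset h1 (iUnion_subset fun j => (h2 j).elim fun _ h =>
    h.2.trans (subset_sUnion_of_mem h.1)))
    (union_subset sdiff_subset (iUnion_subset fun j => fw_le.trans (win_core hw hd j)))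
    (vertex_RN ho hc hw hd hK) (Submodule.sum_mem _ fun j _ => hs j)
    (by rw [map_sum]; exact Submodule.sum_mem _ fun j _ => (h2 j).elim fun _ h =>
      Sb.ch_mono (On_le_Sm h.1) (ch_mono h.2 ((hw j).mem ho hc).2))

end vertex



end Crest.Agent.N255.Vc

end
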